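import Vale.Agent.P030.H476.V1.B0
import Vale.Agent.P030.H476.V1.B1
import Vale.Agent.P030.H476.V1.B2
import Vale.Agent.P030.H476.V1.B3
import Vale.Agent.P030.H476.V1.B4
import Vale.Agent.P030.H476.V1.B5
import Vale.Agent.P030.H476.V1.B6
import Vale.Agent.P030.H476.V1.B7

/-!
# The energy of the table
-/

namespace Vale.Agent.P030.H476.VE.V1

open Vale.Agent.P030.H476.VE

theorem ok : okE S A = true := by decide +kernel

theorem len : A.length ≤ 375 := by decide +kernel

theorem step {i P Q : ℕ} (hs : Seg S A i P Q) (k : ℕ) {P' Q' : ℕ}
    (hp : Nat.ble P' (segP S.O k (A.drop i)) = true)
    (hq : Nat.ble (segN S.O k (A.drop i)) Q' = true) {i' P'' Q'' : ℕ}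
    (h : (Nat.beq i' (Nat.add i k) && (Nat.beq P'' (Nat.add P P') &&
      Nat.beq Q'' (Nat.add Q Q'))) = true) : Seg S A i' P'' Q'' := by
  simp only [Bool.and_eq_true] at h
  have h1 : i' = i + k := Nat.eq_of_beq_eq_true h.1
  have h2 : P'' = P + P' := Nat.eq_of_beq_eq_true h.2.1
  have h3 : Q'' = Q + Q' := Nat.eq_of_beq_eq_true h.2.2
  rw [h1, h2, h3]
  exact seg_step ok hs k hp hq

theorem s0 : Seg S A 12
    80808150608436121829871736890023
    96982866648706644837174978068884 :=
  step seg_zero 12 p0 q0 (by decide +kernel)

theorem s1 : Seg S A 23
    87355619850969650510701724222999
    105381311623749226424184435213074 :=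
  step s0 11 p1 q1 (by decide +kernel)

theorem s2 : Seg S A 35
    117248490650225822020680536931393
    167772459675935692136078233764154 :=
  step s1 12 p2 q2 (by decide +kernel)

theorem s3 : Seg S A 47
    161778478432295088551462998159040
    188849748329538665598824906991752 :=
  step s2 12 p3 q3 (by decide +kernel)

theorem s4 : Seg S A 59
    174713644618466860834571380111418
    197067442618213144274420673101148 :=
  step s3 12 p4 q4 (by decide +kernel)

theorem s5 : Seg S A 72
    183049991242572328566132711060031
    210245103849546694256018385726882 :=
  step s4 13 p5 q5 (by decide +kernel)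

theorem s6 : Seg S A 81
    184776344863526702065086494873491
    210815553256858901792667201879134 :=
  step s5 9 p6 q6 (by decide +kernel)

theorem s7 : Seg S A 90
    186572081571118935598825351082361
    211412443827066825619847445997298 :=
  step s6 9 p7 q7 (by decide +kernel)

theorem s8 : Seg S A 99
    188239021385502078648461358412869
    212008334695128392876393391340582 :=
  step s7 9 p8 q8 (by decide +kernel)

theorem s9 : Seg S A 109
    189942029695480959856492706020117
    212670793323195461661944611315830 :=
  step s8 10 p9 q9 (by decide +kernel)

theorem s10 : Seg S A 118
    191332885167474408373144394316557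
    213264716286362766049662799587998 :=
  step s9 9 p10 q10 (by decide +kernel)

theorem s11 : Seg S A 128
    192719381132444917453737290634479
    213921265477703925820938365991354 :=
  step s10 10 p11 q11 (by decide +kernel)

theorem s12 : Seg S A 139
    194046902527946356018539105350751
    214636010048918480774909439481198 :=
  step s11 11 p12 q12 (by decide +kernel)

theorem s13 : Seg S A 150
    195152708914268847344148492673671
    215313082490970480677865938314522 :=
  step s12 11 p13 q13 (by decide +kernel)

theorem s14 : Seg S A 162
    196114286783171441689753909675797
    216046792889528560627506265005538 :=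
  step s13 12 p14 q14 (by decide +kernel)

theorem s15 : Seg S A 174
    196895691303242839908175428424951
    216803816048262654027154660796514 :=
  step s14 12 p15 q15 (by decide +kernel)

theorem s16 : Seg S A 187
    197760915688056628267857994944367
    217755456858805203253493248348002 :=
  step s15 13 p16 q16 (by decide +kernel)

theorem s17 : Seg S A 201
    199150712966559665463209719399777
    219556287653436695171569327901002 :=
  step s16 14 p17 q17 (by decide +kernel)

theorem s18 : Seg S A 216
    200391773726391269184938454744697
    221608996676029605166241192092294 :=
  step s17 15 p18 q18 (by decide +kernel)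

theorem s19 : Seg S A 233
    201396748279773815435058850040617
    223953127175878312933920755639190 :=
  step s18 17 p19 q19 (by decide +kernel)

theorem s20 : Seg S A 252
    202050449423671979836607323868577
    226671431595650337968753827930178 :=
  step s19 19 p20 q20 (by decide +kernel)

theorem s21 : Seg S A 275
    203735277893942917889185518829477
    228949221544252052608611126510750 :=
  step s20 23 p21 q21 (by decide +kernel)

theorem s22 : Seg S A 304
    207787346883958795268378483935939
    229160986908676159148125727599702 :=
  step s21 29 p22 q22 (by decide +kernel)

theorem s23 : Seg S A 375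
    238248386118998019358956877408723
    233471258474255061567697051684594 :=
  step s22 71 p23 q23 (by decide +kernel)

/-- total of the positive part -/
def P : Nat := 238248386118998019358956877408723

/-- total of the negative part -/
def Q : Nat := 233471258474255061567697051684594

theorem seg : Seg S A 375 P Q := s23

/-- **sum of the energies of the eight levels** -/
theorem sum_En : ((P : ℝ) - Q) / (2 ^ 41 * (S.L : ℝ) ^ 2) - 8 * Real.log S.N ≤
    ∑ i, (lvM S A ok i).En :=
  sum_En_ge ok seg len

end Vale.Agent.P030.H476.VE.V1
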